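import Mathlib

namespace Vale.Agent.Results.P042.DegreeReduction

open Polynomial Finset

/-- `h` is intersective: it has a root modulo every `q ≥ 1`. -/
def Intersective (h : ℤ[X]) : Prop :=
  ∀ q : ℕ, 1 ≤ q → ∃ t : ℤ, (q : ℤ) ∣ h.eval t

/-- No difference of two elements of `A` is a nonzero value `h(n)`, `n ≥ 1`. -/
def Avoids (h : ℤ[X]) (A : Finset ℤ) : Prop :=
  ∀ a ∈ A, ∀ b ∈ A, ∀ n : ℕ, 1 ≤ n → a - b = h.eval (n : ℤ) → a - b = 0

open Classical in
/-- `r_h(N)`: the largest size of a subset of `{1, …, N}` which avoids `h`. -/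
noncomputable def r (h : ℤ[X]) (N : ℕ) : ℕ :=
  ((Finset.Icc (1 : ℤ) (N : ℤ)).powerset.filter (fun A => Avoids h A)).sup Finset.card

/-- A power saving for `r_h`. -/
def PowerSaving (h : ℤ[X]) : Prop :=
  ∃ c : ℝ, 0 < c ∧ ∃ C : ℝ, ∀ N : ℕ, 1 ≤ N → (r h N : ℝ) ≤ C * (N : ℝ) ^ (1 - c)

lemma card_le_r {h : ℤ[X]} {N : ℕ} {A : Finset ℤ} (hA : A ⊆ Finset.Icc (1 : ℤ) (N : ℤ))
    (hav : Avoids h A) : A.card ≤ r h N := by
  classical
  unfold r
  exact Finset.le_sup (f := Finset.card) (by simp only [mem_filter, mem_powerset]; exact ⟨hA, hav⟩)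

lemma r_le {h : ℤ[X]} {N M : ℕ} (H : ∀ A : Finset ℤ, A ⊆ Finset.Icc (1 : ℤ) (N : ℤ) →
    Avoids h A → A.card ≤ M) : r h N ≤ M := by
  classical
  unfold r
  refine Finset.sup_le fun A hA => ?_
  simp only [mem_filter, mem_powerset] at hA
  exact H A hA.1 hA.2

/-- Substituting a polynomial which maps positive integers to positive integers. -/
lemma r_comp (h p : ℤ[X]) (hp : ∀ n : ℕ, 1 ≤ n → 1 ≤ p.eval (n : ℤ)) (N : ℕ) :
    r h N ≤ r (h.comp p) N := by
  refine r_le fun A hA hav => card_le_r hA ?_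
  intro a ha b hb n hn he
  rw [eval_comp] at he
  have h1 := hp n hn
  have h2 : ((p.eval (n : ℤ)).toNat : ℤ) = p.eval (n : ℤ) := Int.toNat_of_nonneg (by omega)
  exact hav a ha b hb (p.eval (n : ℤ)).toNat (by omega) (by rw [h2]; exact he)

lemma key (m a b : ℤ) (h : a % m = b % m) :
    a - b = m * ((a + (m - 1)) / m - (b + (m - 1)) / m) := by
  have h' : (a + (m - 1)) % m = (b + (m - 1)) % m := Int.ModEq.add_right (m - 1) h
  have e1 := Int.emod_add_mul_ediv (a + (m - 1)) m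
  have e2 := Int.emod_add_mul_ediv (b + (m - 1)) m
  rw [h'] at e1
  rw [mul_sub]
  linarith

/-- Multiplying by a positive constant. -/
lemma r_mul (h : ℤ[X]) (m : ℕ) (hm : 1 ≤ m) (N : ℕ) :
    r (C (m : ℤ) * h) N ≤ m * r h N := by
  classical
  refine r_le fun A hA hav => ?_
  have hm0 : (0 : ℤ) < m := by exact_mod_cast hm
  have hfib : ∀ i ∈ Finset.range m, (A.filter (fun a => a % (m : ℤ) = (i : ℤ))).card ≤ r h N := by
    intro i hi
    have hinj : Set.InjOn (fun a : ℤ => (a + ((m : ℤ) - 1)) / (m : ℤ))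
        (↑(A.filter (fun a => a % (m : ℤ) = (i : ℤ))) : Set ℤ) := by
      intro a ha b hb hab
      simp only [coe_filter, Set.mem_ofPred_eq] at ha hb
      have := key m a b (ha.2.trans hb.2.symm)
      simp only at hab
      rw [hab, sub_self, mul_zero] at this
      linarith
    rw [← Finset.card_image_of_injOn hinj]
    refine card_le_r ?_ ?_
    · intro x hx
      simp only [mem_image, mem_filter] at hx
      obtain ⟨a, ⟨haA, hai⟩, rfl⟩ := hx
      have haN := hA haA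
      rw [Finset.mem_Icc] at haN ⊢
      have hm1 : (1 : ℤ) ≤ m := by exact_mod_cast hm
      constructor
      · rw [Int.le_ediv_iff_mul_le hm0]; linarith
      · have : (a + ((m : ℤ) - 1)) / (m : ℤ) < N + 1 := by
          rw [Int.ediv_lt_iff_lt_mul hm0]
          nlinarith
        omega
    · intro x hx y hy n hn he
      simp only [mem_image, mem_filter] at hx hy
      obtain ⟨a, ⟨haA, hai⟩, rfl⟩ := hx
      obtain ⟨b, ⟨hbA, hbi⟩, rfl⟩ := hy
      have hk := key m a b (hai.trans hbi.symm)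
      have := hav a haA b hbA n hn (by rw [hk, he]; simp)
      rw [hk] at this
      rcases mul_eq_zero.mp this with h0 | h0
      · omega
      · exact h0
  have hmaps : ∀ a ∈ A, (a % (m : ℤ)).toNat ∈ Finset.range m := by
    intro a _
    have h1 := Int.emod_nonneg a hm0.ne'
    have h2 := Int.emod_lt_of_pos a hm0
    rw [Finset.mem_range]; omega
  calc A.card = ∑ i ∈ Finset.range m, (A.filter (fun a => (a % (m : ℤ)).toNat = i)).card :=
        Finset.card_eq_sum_card_fiberwise hmaps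
    _ ≤ ∑ i ∈ Finset.range m, r h N := by
        refine Finset.sum_le_sum fun i hi => le_trans (Finset.card_le_card ?_) (hfib i hi)
        intro a ha
        simp only [mem_filter] at ha ⊢
        have h1 := Int.emod_nonneg a hm0.ne'
        exact ⟨ha.1, by omega⟩
    _ = m * r h N := by simp

lemma PowerSaving.of_comp {h p : ℤ[X]} (hp : ∀ n : ℕ, 1 ≤ n → 1 ≤ p.eval (n : ℤ))
    (H : PowerSaving (h.comp p)) : PowerSaving h := by
  obtain ⟨c, hc, C', H⟩ := H
  refine ⟨c, hc, C', fun N hN => le_trans ?_ (H N hN)⟩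
  exact_mod_cast r_comp h p hp N

lemma PowerSaving.mul {h : ℤ[X]} {m : ℕ} (hm : 1 ≤ m) (H : PowerSaving h) :
    PowerSaving (C (m : ℤ) * h) := by
  obtain ⟨c, hc, C', H⟩ := H
  refine ⟨c, hc, m * C', fun N hN => ?_⟩
  calc (r (C (m : ℤ) * h) N : ℝ) ≤ ((m * r h N : ℕ) : ℝ) := by exact_mod_cast r_mul h m hm N
    _ = (m : ℝ) * (r h N : ℝ) := by push_cast; ring
    _ ≤ (m : ℝ) * (C' * (N : ℝ) ^ (1 - c)) := by gcongr; exact H N hN
    _ = m * C' * (N : ℝ) ^ (1 - c) := by ring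

/-- The class of polynomials in Q1. -/
def Good (h : ℤ[X]) : Prop := Intersective h ∧ 2 ≤ h.natDegree ∧ 0 < h.leadingCoeff

lemma good_lift (h : ℤ[X]) (hh : Good h) (K : ℕ) :
    ∃ p : ℤ[X], (∀ n : ℕ, 1 ≤ n → 1 ≤ p.eval (n : ℤ)) ∧ Good (h.comp p) ∧
      K ≤ (h.comp p).natDegree := by
  obtain ⟨hi, hd, hl⟩ := hh
  have h0 : h ≠ 0 := by rintro rfl; simp at hl
  have hsq : (h ^ 2 * X ^ K).natDegree = 2 * h.natDegree + K := by
    rw [natDegree_mul (pow_ne_zero _ h0) (pow_ne_zero _ X_ne_zero), natDegree_pow, natDegree_X_pow]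
  have hlt : (X : ℤ[X]).natDegree < (h ^ 2 * X ^ K).natDegree := by
    rw [hsq, natDegree_X]; omega
  have hpd : (X + h ^ 2 * X ^ K).natDegree = 2 * h.natDegree + K := by
    rw [natDegree_add_eq_right_of_natDegree_lt hlt, hsq]
  have hpl : (X + h ^ 2 * X ^ K).leadingCoeff = h.leadingCoeff ^ 2 := by
    rw [leadingCoeff_add_of_degree_lt (degree_lt_degree hlt), leadingCoeff_mul, leadingCoeff_pow,
      leadingCoeff_X_pow, mul_one]
  refine ⟨X + h ^ 2 * X ^ K, ?_, ⟨?_, ?_, ?_⟩, ?_⟩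
  · intro n hn
    simp only [eval_add, eval_X, eval_mul, eval_pow]
    have : (0 : ℤ) ≤ (h.eval (n : ℤ)) ^ 2 * (n : ℤ) ^ K := by positivity
    have hn' : (1 : ℤ) ≤ n := by exact_mod_cast hn
    linarith
  · intro q hq
    obtain ⟨t, ht⟩ := hi q hq
    refine ⟨t, ?_⟩
    rw [eval_comp]
    have hp : (X + h ^ 2 * X ^ K : ℤ[X]).eval t - t = (h.eval t) ^ 2 * t ^ K := by
      simp only [eval_add, eval_X, eval_mul, eval_pow]; ring
    have h1 : (q : ℤ) ∣ (X + h ^ 2 * X ^ K : ℤ[X]).eval t - t := by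
      rw [hp, sq, mul_assoc]; exact Dvd.dvd.mul_right ht _
    have h2 := h1.trans (sub_dvd_eval_sub ((X + h ^ 2 * X ^ K : ℤ[X]).eval t) t h)
    have h3 := dvd_add h2 ht
    simpa using h3
  · rw [natDegree_comp, hpd]
    nlinarith
  · rw [leadingCoeff_comp (by rw [hpd]; omega), hpl]
    positivity
  · rw [natDegree_comp, hpd]
    nlinarith

lemma good_primPart (h : ℤ[X]) (hh : Good h) :
    Good h.primPart ∧ h.primPart.IsPrimitive ∧ h.primPart.natDegree = h.natDegree ∧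
      ∃ m : ℕ, 1 ≤ m ∧ h = C (m : ℤ) * h.primPart := by
  obtain ⟨hi, hd, hl⟩ := hh
  have h0 : h ≠ 0 := by rintro rfl; simp at hl
  have hc0 : h.content ≠ 0 := by rwa [Ne, content_eq_zero_iff]
  have hcn : 0 ≤ h.content := Int.nonneg_of_normalize_eq_self h.normalize_content
  have hdeg := h.natDegree_primPart
  obtain ⟨m, hm⟩ := Int.eq_ofNat_of_zero_le hcn
  have hm1 : 1 ≤ m := by
    rcases Nat.eq_zero_or_pos m with h1 | h1
    · subst h1; exact absurd hm (by simpa using hc0)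
    · exact h1
  have heq : h = C (m : ℤ) * h.primPart := by
    conv_lhs => rw [h.eq_C_content_mul_primPart, hm]
  refine ⟨⟨?_, ?_, ?_⟩, h.isPrimitive_primPart, hdeg, m, hm1, heq⟩
  · intro q hq
    obtain ⟨t, ht⟩ := hi (m * q) (Nat.mul_pos hm1 hq)
    refine ⟨t, ?_⟩
    rw [heq, eval_mul, eval_C] at ht
    push_cast at ht
    exact (mul_dvd_mul_iff_left (by exact_mod_cast (by omega : m ≠ 0))).mp ht
  · rw [hdeg]; exact hd
  · rw [heq, leadingCoeff_mul, leadingCoeff_C] at hl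
    have hmp : (0 : ℤ) < m := by exact_mod_cast hm1
    exact (mul_pos_iff_of_pos_left hmp).mp hl

/-- **Result.** -/
theorem result :
    (∀ (h p : ℤ[X]), (∀ n : ℕ, 1 ≤ n → 1 ≤ p.eval (n : ℤ)) → ∀ N : ℕ, r h N ≤ r (h.comp p) N) ∧
    (∀ (h : ℤ[X]) (m : ℕ), 1 ≤ m → ∀ N : ℕ, r (C (m : ℤ) * h) N ≤ m * r h N) ∧
    (∀ K : ℕ,
      ((∀ h : ℤ[X], Intersective h → 2 ≤ h.natDegree → 0 < h.leadingCoeff → PowerSaving h) ↔
        (∀ h : ℤ[X], Intersective h → h.IsPrimitive → 2 ≤ h.natDegree → K ≤ h.natDegree →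
          0 < h.leadingCoeff → PowerSaving h))) := by
  refine ⟨r_comp, r_mul, fun K => ⟨fun H h h1 _ h3 _ h5 => H h h1 h3 h5, fun H h h1 h2 h3 => ?_⟩⟩
  obtain ⟨p, hp, hg, hK⟩ := good_lift h ⟨h1, h2, h3⟩ K
  obtain ⟨hg', hprim, hdeg, m, hm, heq⟩ := good_primPart _ hg
  refine PowerSaving.of_comp hp ?_
  rw [heq]
  exact PowerSaving.mul hm (H _ hg'.1 hprim hg'.2.1 (by rw [hdeg]; exact hK) hg'.2.2)

end Vale.Agent.Results.P042.DegreeReduction
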